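import Vale.Agent.Lib.P074.Third.Chain
import Vale.Agent.Lib.P074.helper94.Exist
import Vale.Agent.Lib.P074.helper55.Cont
import Vale.Agent.Lib.P074.helper82.Lip
import Vale.Agent.Lib.P074.helper40.GN

/-!
# P074: the optimal stability exponent of quadratic optimal transport maps is exactly 1/3

In every dimension `d ≥ 2`:
* the exponent `α = 1/3` is admissible: for every compact convex `K` with nonempty interior and
  every nonempty compact `Y` there is `C` with `‖T_μ - T_ν‖_{L²(ρ)} ≤ C W₂(μ, ν)^{1/3}` for all
  Borel probability measures `μ, ν` supported in `Y` (`ρ` uniform on `K`);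
* no exponent `α > 1/3` is admissible;
* hence `1/3` is the greatest admissible exponent: the supremum of the admissible exponents
  equals `1/3` and it is attained.
The definitions `E`, `unif`, `IsOptMap`, `W2`, `Admissible` are in `Vale.Agent.Lib.P074.Defs`.
-/

namespace Vale.Agent.Results.P074.A0_ExponentExactlyOneThird

open Vale.Agent.Lib.P074

theorem result : ∀ d : ℕ, 2 ≤ d →
    Admissible d (1 / 3) ∧ (∀ α : ℝ, 1 / 3 < α → ¬ Admissible d α) ∧
      IsGreatest {α : ℝ | 0 < α ∧ α ≤ 1 ∧ Admissible d α} (1 / 3) ∧
      sSup {α : ℝ | 0 < α ∧ α ≤ 1 ∧ Admissible d α} = 1 / 3 := by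
  intro d hd
  have h : Admissible d (1 / 3) :=
    admissible_third_of_pieces d (by omega) (ex_statement d)
      (lip_of_pieces d (centroid_statement d) (ex_statement d) (cont_statement d))
      (gn_statement d)
  have hg : IsGreatest {α : ℝ | 0 < α ∧ α ≤ 1 ∧ Admissible d α} (1 / 3) := by
    refine ⟨⟨by norm_num, by norm_num, h⟩, fun α hα => ?_⟩
    by_contra hcon
    push Not at hcon
    exact not_admissible d hd α hcon hα.2.2
  exact ⟨h, not_admissible d hd, hg, hg.csSup_eq⟩

end Vale.Agent.Results.P074.A0_ExponentExactlyOneThird
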