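import Vale.Agent.Lib.P074.Main

/-!
# P074: no stability exponent above 1/3 is admissible

In every dimension `d ≥ 2`, no exponent `α > 1/3` is admissible for the stability of quadratic
optimal transport maps from the uniform measure on a compact convex set. In particular
`α = 1/2` is not admissible, and the supremum of the admissible exponents is at most `1/3`.
The definitions `E`, `unif`, `IsOptMap`, `W2`, `Admissible` are in `Vale.Agent.Lib.P074.Defs`.
-/

namespace Vale.Agent.Results.P074.A_NotAdmissibleAboveThird

open Vale.Agent.Lib.P074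

theorem result : ∀ d : ℕ, 2 ≤ d →
    (∀ α : ℝ, 1 / 3 < α → ¬ Admissible d α) ∧ ¬ Admissible d (1 / 2) ∧
      sSup {α : ℝ | 0 < α ∧ α ≤ 1 ∧ Admissible d α} ≤ 1 / 3 :=
  fun d hd => ⟨not_admissible d hd, not_admissible d hd (1 / 2) (by norm_num),
    sSup_admissible_le d hd⟩

end Vale.Agent.Results.P074.A_NotAdmissibleAboveThird
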