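import Vale.Agent.Lib.P074.LB.Quarter

/-!
# P074: the exponent 1/4 is admissible, and the optimal exponent lies in [1/4, 1/3]

In every dimension `d ≥ 2`:
* the exponent `α = 1/4` is admissible for the stability of quadratic optimal transport maps
  from the uniform measure on a compact convex set (the previously known exponent was `1/6`);
* no exponent `α > 1/3` is admissible (the previously known bound was `1/2`);
* hence the supremum of the admissible exponents lies between `1/4` and `1/3`.
The definitions `E`, `unif`, `IsOptMap`, `W2`, `Admissible` are in `Vale.Agent.Lib.P074.Defs`.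
-/

namespace Vale.Agent.Results.P074.D_QuarterAdmissibleBracket

open Vale.Agent.Lib.P074

theorem result : ∀ d : ℕ, 2 ≤ d →
    Admissible d (1 / 4) ∧ (∀ α : ℝ, 1 / 3 < α → ¬ Admissible d α) ∧
      1 / 4 ≤ sSup {α : ℝ | 0 < α ∧ α ≤ 1 ∧ Admissible d α} ∧
      sSup {α : ℝ | 0 < α ∧ α ≤ 1 ∧ Admissible d α} ≤ 1 / 3 :=
  fun d hd => ⟨admissible_quarter d, not_admissible d hd, quarter_le_sSup_admissible d,
    sSup_admissible_le d hd⟩

end Vale.Agent.Results.P074.D_QuarterAdmissibleBracket
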