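import Vale.Agent.Lib.P074.LB.Quarter
import Vale.Agent.Lib.P074.helper43.W1Upper

/-!
# P074: against `W_1` the optimal stability exponent is exactly 1/4; against `W_2` it is in [1/4, 1/3]

In every dimension `d ≥ 2`, for the quadratic optimal transport maps from the uniform measure on
a compact convex set:
* the bound `‖T_μ - T_ν‖_{L^2(ρ)} ≤ C W_1(μ, ν)^{1/4}` holds (the previously known exponent
  against `W_1` was `1/6`), and no exponent above `1/4` is possible against `W_1`, so the
  supremum of the exponents admissible against `W_1` equals `1/4` and is attained;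
* against `W_2` the exponent `1/4` is admissible and no exponent above `1/3` is admissible.
The definitions `E`, `unif`, `IsOptMap`, `W2`, `Admissible` are in `Vale.Agent.Lib.P074.Defs`,
and `W1`, `Admissible1` are in `Vale.Agent.Lib.P074.DefsW1`.
-/

namespace Vale.Agent.Results.P074.E_W1ExponentExactlyQuarter

open Vale.Agent.Lib.P074

theorem result : ∀ d : ℕ, 2 ≤ d →
    Admissible1 d (1 / 4) ∧ (∀ α : ℝ, 1 / 4 < α → ¬ Admissible1 d α) ∧
      sSup {α : ℝ | 0 < α ∧ α ≤ 1 ∧ Admissible1 d α} = 1 / 4 ∧
      Admissible d (1 / 4) ∧ (∀ α : ℝ, 1 / 3 < α → ¬ Admissible d α) := by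
  intro d hd
  refine ⟨admissible1_quarter d, not_admissible1 d hd, ?_, admissible_quarter d,
    not_admissible d hd⟩
  apply le_antisymm (sSup_admissible1_le d hd)
  apply le_csSup
  · exact ⟨1, fun α hα => hα.2.1⟩
  · exact ⟨by norm_num, by norm_num, admissible1_quarter d⟩

end Vale.Agent.Results.P074.E_W1ExponentExactlyQuarter
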